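import Vale.Agent.Lib.P161.Restrict

namespace Vale.Agent.Results.P161.DegreeMonotone

open MeasureTheory Vale.Agent.Lib.P161

/-- If the free Ising measure with parameter `θ` on the `d'`-regular tree, presented as the
rooted product of the `d`-regular tree `G` with a rooted tree `(R, r)`, is a factor of IID,
then the free Ising measure with the same `θ` on the `d`-regular tree `G` is a factor of IID. -/
theorem result (d d' : ℕ) (hd : 3 ≤ d) (hdd' : d ≤ d') {V W : Type} [Countable W]
    (G : SimpleGraph V) [G.LocallyFinite] (hG : G.IsTree) (hreg : G.IsRegularOfDegree d)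
    (R : SimpleGraph W) (r : W) [(rootedProduct G R r).LocallyFinite]
    (hH : (rootedProduct G R r).IsTree) (hHreg : (rootedProduct G R r).IsRegularOfDegree d')
    (θ : ℝ) (hθ : 0 ≤ θ ∧ θ ≤ 1) (ν' : Measure (V × W → Bool)) (ν : Measure (V → Bool))
    (I' : IsFreeIsing (rootedProduct G R r) θ ν') (I : IsFreeIsing G θ ν)
    (F' : IsFIID (rootedProduct G R r) ν') : IsFIID G ν :=
  isFIID_of_rootedProduct hG.connected I' I F'

end Vale.Agent.Results.P161.DegreeMonotone
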