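import Vale.Agent.Lib.P161.Semigroup

namespace Vale.Agent.Results.P161.ProductClosed

open MeasureTheory Vale.Agent.Lib.P161

/-- On the `d`-regular tree, the set of parameters `θ = tanh β` for which the free Ising
measure is a factor of IID is closed under multiplication. -/
theorem result (d : ℕ) (hd : 3 ≤ d) {V : Type} (G : SimpleGraph V) [G.LocallyFinite]
    (hG : G.IsTree) (hreg : G.IsRegularOfDegree d)
    (θ₁ θ₂ : ℝ) (h₁ : 0 ≤ θ₁ ∧ θ₁ ≤ 1) (h₂ : 0 ≤ θ₂ ∧ θ₂ ≤ 1)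
    (ν₁ ν₂ ν₃ : Measure (V → Bool))
    (I₁ : IsFreeIsing G θ₁ ν₁) (I₂ : IsFreeIsing G θ₂ ν₂) (I₃ : IsFreeIsing G (θ₁ * θ₂) ν₃)
    (F₁ : IsFIID G ν₁) (F₂ : IsFIID G ν₂) : IsFIID G ν₃ :=
  isFIID_of_mul hG.connected h₁ h₂ I₁ I₂ I₃ F₁ F₂

end Vale.Agent.Results.P161.ProductClosed
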